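import Vale.Agent.P330.W.H840.RFacts
import Vale.Agent.P330.H155.Prog

/-!
# The register system of a content program

`datOf R W …` is the concrete register system with the registers of the content program `R`.
-/

set_option autoImplicit false

namespace Vale.Agent.P330.H840

open Finset H155 H797 Q

variable {J Γ B F : Type} [AddCommGroup J] [Fintype J] [Group Γ] [Fintype Γ]
  [DistribMulAction Γ J] [Field F]

variable {iJ iG : Type} {n K : ℕ}

/-- The numbering of the base registers: `(i, γ, b') ↦ i * q + (number of (γ, b'))`. -/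
def nuOf {q : ℕ} (en : Fin q ≃ Γ × B) (n : ℕ) : Fin (n * q) ≃ Fin n × Γ × B :=
  finProdFinEquiv.symm.trans (Equiv.prodCongr (Equiv.refl _) en)

variable (R : RS J Γ B F iJ iG n) (W : Wires R.S R.g.gG R.g.sJ K)

/-- The entries of a list of rows; `0` beyond the end. -/
def gr (l : List (B → F)) (i : ℕ) : B → F := l.getD i 0

/-- The concrete register system of a content program. -/
noncomputable def datOf (DL DR : (B → Option F) → B → F)
    (vchk : J × Γ → (ℕ → B → F) → Prop) (nxt : Bool → J × Γ → (ℕ → B → F) → List (B → F))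
    (D : Dyn (Fin n → J → F)) : Dat R.S R.g.gG R.g.sJ K where
  W := W
  n := n
  nb := n * R.q
  ν := nuOf R.en n
  L := R.L
  cont x j := R.cnt x (n * R.q + j)
  link j h v := R.linkN j h (gr (v W.own)) (fun a => gr (v (W.jw a))) (fun a => gr (v (W.gw a)))
  DL := DL
  DR := DR
  vchk h v := vchk h (gr (v W.own))
  nxt z h v := nxt z h (gr (v W.own))
  D := D

variable {R W} {DL DR : (B → Option F) → B → F} {vchk : J × Γ → (ℕ → B → F) → Prop}
  {nxt : Bool → J × Γ → (ℕ → B → F) → List (B → F)} {D : Dyn (Fin n → J → F)}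

omit [Fintype Γ] in
/-- All rows are the rows of the content program. -/
theorem datOf_row (hS : R.S.Good) (x : Fin n → J → F) (j : ℕ) (h : J × Γ) :
    (datOf R W DL DR vchk nxt D).row x j h = R.row x j h := by
  by_cases hj : j < n * R.q
  · have hq : 0 < R.q := by
      rcases Nat.eq_zero_or_pos R.q with h0 | h0
      · rw [h0] at hj; simp at hj
      · exact h0
    have h1 := (datOf R W DL DR vchk nxt D).row_base x ⟨j, hj⟩ h
    refine h1.trans ?_
    have h2 : (datOf R W DL DR vchk nxt D).ν ⟨j, hj⟩ =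
        (⟨j / R.q, Nat.div_lt_of_lt_mul (by rwa [Nat.mul_comm] at hj)⟩,
          R.en ⟨j % R.q, Nat.mod_lt _ hq⟩) := by
      change nuOf R.en n ⟨j, hj⟩ = _
      unfold nuOf
      simp only [Equiv.trans_apply, Equiv.prodCongr_apply, Prod.map, Equiv.refl_apply]
      rfl
    rw [h2]
    have hdiv : j / R.q < n := Nat.div_lt_of_lt_mul (by rwa [Nat.mul_comm] at hj)
    unfold RS.row RS.cnt
    rw [if_pos (show j < R.nb from hj), dif_pos hdiv]
    rw [Cd.Z_eq_E hS]
    unfold RS.bcnt RS.enN
    rw [dif_pos (Nat.mod_lt _ hq)]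
    rfl
  · obtain ⟨k, rfl⟩ := Nat.exists_eq_add_of_le (not_lt.mp hj)
    exact (datOf R W DL DR vchk nxt D).row_further x k h

omit [Fintype Γ] in
theorem gr_stk (hS : R.S.Good) (x : Fin n → J → F) (m : ℕ) (h : J × Γ) :
    gr ((datOf R W DL DR vchk nxt D).sys.stk x m h) = trunc m fun i => R.row x i h := by
  funext i
  unfold gr Sys.stk
  rw [getD_map_range]
  unfold trunc
  split_ifs
  · exact datOf_row hS x i h
  · rfl

omit [Fintype Γ] in
/-- The links of the concrete register system. -/
theorem datOf_link (hS : R.S.Good) (hK : R.KitOK) (hP : R.ProgOK) (x : Fin n → J → F) (j : ℕ)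
    (h : J × Γ) (hj : j < (datOf R W DL DR vchk nxt D).L) :
    R.S.E ((datOf R W DL DR vchk nxt D).cont x j) h = (datOf R W DL DR vchk nxt D).link j h
      (fun i => (datOf R W DL DR vchk nxt D).sys.stk x
        ((datOf R W DL DR vchk nxt D).nb + j) (W.wr i h)) := by
  change R.S.E (R.cnt x (n * R.q + j)) h = R.linkN j h
    (gr ((datOf R W DL DR vchk nxt D).sys.stk x (n * R.q + j) (W.wr W.own h)))
    (fun a => gr ((datOf R W DL DR vchk nxt D).sys.stk x (n * R.q + j) (W.wr (W.jw a) h)))
    (fun a => gr ((datOf R W DL DR vchk nxt D).sys.stk x (n * R.q + j) (W.wr (W.gw a) h)))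
  simp only [gr_stk hS, W.own_eq, W.jw_eq, W.gw_eq]
  exact RS.row_eq_linkN hS hK hP x j hj h

omit [Fintype Γ] in
theorem L_pos_of (hK : R.KitOK) (hn : 0 < n + R.Q.HL) : 0 < R.L :=
  Nat.mul_pos hn hK.KL_pos

/-- **The facts about the register system of a content program.** -/
theorem rfacts_of (hS : R.S.Good) (hK : R.KitOK) (hP : R.ProgOK) (c : Cst)
    (hpos : 0 < n + R.Q.HL) (hExp : ExpandE W.wr c.cE) (hEx : ExactE R.S c.C c.ρ₀)
    (hCo : ContractE R.S (datOf R W DL DR vchk nxt D) c.ρ₁ c.c₀) (hDi : DistE R.S c.θ)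
    {κ : ℝ → ℝ} (hLtc : LtcE R.S R.g.gG κ)
    (hκ : ∀ ρ, 0 < ρ → c.κL ρ ≤ min (κ (ρ / 2)) (ρ / 2))
    (hv : ∀ x, D.Valid x → ∀ h, vchk h (trunc (R.nb + R.L) fun i => R.row x i h))
    (hv' : ∀ x, fr (fun h => ¬ vchk h (trunc (R.nb + R.L) fun i => R.row x i h)) ≤ c.κV →
      D.Valid x)
    (hn : ∀ z x, D.Valid x → ∀ h, nxt z h (trunc (R.nb + R.L) fun i => R.row x i h) =
      (List.range R.nb).map fun j => R.row (D.step z x) j h) :
    RFacts (datOf R W DL DR vchk nxt D).sys c := by
  have hown : ∀ (x : Fin n → J → F) (h : J × Γ),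
      gr ((datOf R W DL DR vchk nxt D).sys.stk x
        ((datOf R W DL DR vchk nxt D).nb + (datOf R W DL DR vchk nxt D).L) (W.wr W.own h)) =
      trunc (R.nb + R.L) fun i => R.row x i h := by
    intro x h
    rw [gr_stk hS, W.own_eq]
    rfl
  refine (datOf R W DL DR vchk nxt D).rfacts hS c (L_pos_of hK hpos) hExp hEx hCo hDi hLtc hκ
    (fun x j h hj => datOf_link hS hK hP x j h hj) ?_ ?_ ?_
  · intro x hx h
    exact (congrArg (vchk h) (hown x h)).mpr (hv x hx h)
  · intro x hx
    refine hv' x (le_trans (le_of_eq ?_) hx)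
    refine congrArg fr (funext fun h => ?_)
    exact (congrArg (fun w => ¬ vchk h w) (hown x h)).symm
  · intro z x hx h
    refine (congrArg (nxt z h) (hown x h)).trans ((hn z x hx h).trans ?_)
    exact List.map_congr_left fun j _ => (datOf_row hS _ j h).symm

end Vale.Agent.P330.H840
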