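import Vale.Agent.P330.H143.Inst

/-!
# The twelve elementary matrices generate `SL₃(K)`
-/

set_option autoImplicit false

namespace Vale.Agent.P330.H840

open Vale.Agent.P330.H143 Matrix

variable {K : Type} [Field K]

/-- A subgroup containing all elementary matrices is everything. -/
theorem eq_top_of_tv (H : Subgroup (Matrix.SpecialLinearGroup (Fin 3) K))
    (h : ∀ (i j : Fin 3) (hij : i ≠ j) (c : K), tv hij c ∈ H) : H = ⊤ := by
  classical
  rw [eq_top_iff]
  intro g _
  have h1 := gauss (K := K) (fun g => if g ∈ H then (0 : ℝ) else 1) 0 ?_ ?_ le_rfl g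
  · by_contra hg
    simp only [hg, if_false] at h1
    norm_num at h1
  · intro a b
    by_cases ha : a ∈ H
    · by_cases hb : b ∈ H
      · simp [ha, hb, H.mul_mem ha hb]
      · simp only [ha, hb, if_true, if_false]
        split_ifs <;> norm_num
    · by_cases hb : b ∈ H
      · simp only [ha, hb, if_true, if_false]
        split_ifs <;> norm_num
      · simp only [ha, hb, if_false]
        split_ifs <;> norm_num
  · intro i j hij c
    simp [h i j hij c]

/-- A subgroup containing the elementary matrices with the entries `1` and `θ` is everything. -/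
theorem eq_top_of_gens [Fintype K] [CharP K 2] {θ : K}
    (hθ : AddSubgroup.closure (Set.range fun i : ℕ => θ ^ i) = ⊤)
    (H : Subgroup (Matrix.SpecialLinearGroup (Fin 3) K))
    (h1 : ∀ (i j : Fin 3) (hij : i ≠ j), tv hij (1 : K) ∈ H)
    (h2 : ∀ (i j : Fin 3) (hij : i ≠ j), tv hij θ ∈ H) : H = ⊤ := by
  let _ : Algebra (ZMod 2) K := ZMod.algebra K 2
  apply eq_top_of_tv
  -- products
  have hmul : ∀ c y : K, (∀ (i j : Fin 3) (hij : i ≠ j), tv hij c ∈ H) →
      (∀ (i j : Fin 3) (hij : i ≠ j), tv hij y ∈ H) →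
      ∀ (i j : Fin 3) (hij : i ≠ j), tv hij (c * y) ∈ H := by
    intro c y hc hy i k hik
    obtain ⟨j, hij, hjk⟩ : ∃ j : Fin 3, i ≠ j ∧ j ≠ k := by
      revert i k; decide
    have e := tv_comm hij hik hjk c y
    have e' : tv hik (c * y) = tv hij c * tv hjk y * (tv hij c)⁻¹ * (tv hjk y)⁻¹ := by
      rw [e]; group
    rw [e']
    exact H.mul_mem (H.mul_mem (H.mul_mem (hc _ _ _) (hy _ _ _)) (H.inv_mem (hc _ _ _)))
      (H.inv_mem (hy _ _ _))
  have hpow : ∀ n : ℕ, ∀ (i j : Fin 3) (hij : i ≠ j), tv hij (θ ^ n) ∈ H := by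
    intro n
    induction n with
    | zero => simpa using h1
    | succ n ih => rw [pow_succ]; exact hmul _ _ ih h2
  intro i j hij c
  have hc : c ∈ AddSubgroup.closure (Set.range fun i : ℕ => θ ^ i) := by rw [hθ]; trivial
  induction hc using AddSubgroup.closure_induction with
  | mem y hy =>
    obtain ⟨n, rfl⟩ := hy
    exact hpow n i j hij
  | zero => rw [tv_zero]; exact H.one_mem
  | add y z _ _ hy hz => rw [tv_add]; exact H.mul_mem hy hz
  | neg y _ hy => rw [← tv_inv]; exact H.inv_mem hy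

/-- The twelve generators. -/
def tg12 (θ : K) (p : Fin 12) : Matrix.SpecialLinearGroup (Fin 3) K :=
  if h : p.1 < 6 then tv (tab_ne ⟨p.1, h⟩) 1 else tv (tab_ne ⟨p.1 - 6, by omega⟩) θ

theorem tg12_lo (θ : K) (q : Fin 6) : tg12 θ ⟨q.1, by omega⟩ = tv (tab_ne q) 1 := by
  unfold tg12
  rw [dif_pos q.2]

theorem tg12_hi (θ : K) (q : Fin 6) : tg12 θ ⟨q.1 + 6, by omega⟩ = tv (tab_ne q) θ := by
  unfold tg12
  rw [dif_neg (by simp)]

theorem closure_tg12 [Fintype K] [CharP K 2] {θ : K} (hθ : AddSubgroup.closure (Set.range fun i : ℕ => θ ^ i) = ⊤) :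
    Subgroup.closure (Set.range (tg12 θ)) = ⊤ := by
  apply eq_top_of_gens hθ
  · intro i j hij
    obtain ⟨p, hp⟩ := tab_surj i j hij
    have : ∀ (q : Fin 3 × Fin 3) (hq : q.1 ≠ q.2), q = (i, j) →
        tv hq (1 : K) = tv hij 1 := by
      rintro q hq rfl; rfl
    rw [← this _ (tab_ne p) hp, ← tg12_lo θ p]
    exact Subgroup.subset_closure ⟨_, rfl⟩
  · intro i j hij
    obtain ⟨p, hp⟩ := tab_surj i j hij
    have : ∀ (q : Fin 3 × Fin 3) (hq : q.1 ≠ q.2), q = (i, j) →
        tv hq θ = tv hij θ := by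
      rintro q hq rfl; rfl
    rw [← this _ (tab_ne p) hp, ← tg12_hi θ p]
    exact Subgroup.subset_closure ⟨_, rfl⟩

theorem tg12_inv [CharP K 2] (θ : K) (p : Fin 12) : (tg12 θ p)⁻¹ = tg12 θ p := by
  unfold tg12
  split_ifs
  · rw [tv_inv, CharTwo.neg_eq]
  · rw [tv_inv, CharTwo.neg_eq]

end Vale.Agent.P330.H840
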