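import Vale.Agent.P330.W.H840.Ltc
import Vale.Agent.P330.W.H840.Gen3
import Vale.Agent.P330.W.H624.Good
import Vale.Agent.P330.W.H170.OutA
import Vale.Agent.P330.H708.LocDec

/-!
# The concrete outer code

`oc A θ d ε`: sites `J × SL₃(K)`, labels `Fin (2 ^ (j t))` (words in the letters of the expander),
local codes over `F` from `W.Abs`.  Under `OHyp` it satisfies all the facts used by
`Dat.rfacts`, with absolute constants (`cst`).
-/

set_option autoImplicit false
set_option linter.unusedSectionVars false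

namespace Vale.Agent.P330.H840

open Finset H155 H797 TAN Polynomial
open W (Abs scal Wd DistGe Abs.kap Abs.Lc Abs.lam)
open W.H709 (ExpP CodeAT CC ltS nbS)
open W.H624 (cdOf lCode rCode good distE exactE expandE contractE)
open W.H972 (expP_symm)
open H708 (LC dist_LC decLC tabB decodes_LC)
open H933 (Fl)

/-- The group `SL₃`. -/
abbrev SL3 (K : Type) [Field K] : Type := Matrix.SpecialLinearGroup (Fin 3) K

variable (A : Abs 8 20) {K : Type} [Field K] [Fintype K] [CharP K 2] (θ : K) (d : Fin 8 → ℕ)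
  {F : Type} [Field F] [Algebra (ZMod 2) F] (ε : F)

/-- **The outer code.** -/
noncomputable def oc : Cd (H675.JJ K d) (SL3 K) (Fin (2 ^ (A.j * A.t))) F :=
  cdOf (fun b => (H143.lab θ d A.j A.t b).1) (fun b => (H143.lab θ d A.j A.t b).2)
    (A.P false) (A.P true) (A.B false) (A.B true) ε A.b0

/-- The hypotheses on the parameters. -/
structure OHyp [Fintype (SL3 K)] : Prop where
  hθ : AddSubgroup.closure (Set.range fun i : ℕ => θ ^ i) = ⊤
  hd : ∀ i, 1 ≤ d i
  hq : ∀ i, 64 * d i ^ 2 ≤ Fintype.card K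
  hgen : ∀ f : (ZMod 2)[X], f ≠ 0 →
    f.natDegree ≤ Fintype.card (SL3 K) * 2 ^ (A.j * A.t) → aeval ε f ≠ 0

/-- The scaling of the local codes. -/
noncomputable def scl (i : Bool) (b : Fin (2 ^ (A.j * A.t))) : F :=
  if i then (if b ∈ A.B false then ε else 1) else 1

omit [Algebra (ZMod 2) F] in
theorem scl_false (b : Fin (2 ^ (A.j * A.t))) : scl A ε false b = 1 := rfl

section

variable {A θ d ε} [Fintype (SL3 K)]

theorem eps_ne (h : OHyp A θ d ε) : ε ≠ 0 := by
  intro h0
  have h1 := h.hgen X X_ne_zero (by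
    rw [natDegree_X]
    have h2 : 0 < Fintype.card (SL3 K) := Fintype.card_pos
    have h3 : 0 < 2 ^ (A.j * A.t) := by positivity
    exact Nat.mul_pos h2 h3)
  rw [aeval_X] at h1
  exact h1 h0

theorem scl_ne (h : OHyp A θ d ε) (i : Bool) (b : Fin (2 ^ (A.j * A.t))) : scl A ε i b ≠ 0 := by
  unfold scl
  split_ifs
  · exact eps_ne h
  · exact one_ne_zero
  · exact one_ne_zero

omit [Fintype (SL3 K)] in
theorem cc_eq (i : Bool) : CC (oc A θ d ε) i = scal (scl A ε i) (A.P i) := by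
  cases i
  · ext x
    change x ∈ Wd (A.P false) F ↔ (fun b => scl A ε false b * x b) ∈ Wd (A.P false) F
    simp [scl_false]
  · ext x
    rfl

omit [Fintype (SL3 K)] in
theorem coe_cc (i : Bool) :
    ((CC (oc A θ d ε) i : Submodule F _) : Set (Fin (2 ^ (A.j * A.t)) → F)) =
      LC (A.P i) (Equiv.refl _) (scl A ε i) := by
  rw [cc_eq]
  rfl

/-- **Freeness.** -/
theorem oc_good (h : OHyp A θ d ε) : (oc A θ d ε).Good := by
  classical
  exact good H675.JJ.add_self (A.info false) (A.card_B false) (A.info true) (A.card_B true) A.disj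
    (A.b0_notMem false) (A.b0_notMem true) fun f hf hdeg => h.hgen f hf (by
      rwa [Fintype.card_fin] at hdeg)

/-! ### The spectral facts -/

theorem Lam_eq : H143.Lam A.j A.t = A.Lc := by
  unfold H143.Lam Abs.Lc H143.rho0
  norm_num

theorem expP_ltS (h : OHyp A θ d ε) :
    ExpP (fun a => ltS ((oc A θ d ε).bet a) ((oc A θ d ε).eta a)) A.Lc := by
  rw [← Lam_eq]
  exact H143.expP_lab_left θ h.hθ d h.hd h.hq (by have := A.hj; norm_num at this; exact this) A.t _
    fun b h => rfl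

theorem eP_apply (b : Fin (2 ^ (A.j * A.t))) (h : H675.JJ K d × SL3 K) :
    eP (oc A θ d ε) b h =
      (h.1 + h.2 • (H143.lab θ d A.j A.t b).1, h.2 * (H143.lab θ d A.j A.t b).2) := by
  have hneg : ∀ x : H675.JJ K d, -x = x := fun x => neg_eq_of_add_eq_zero_left (H675.JJ.add_self x)
  change (h.1 - h.2 • (H143.lab θ d A.j A.t b).1, h.2 * (H143.lab θ d A.j A.t b).2) = _
  rw [sub_eq_add_neg, hneg]

theorem expP_eP' (h : OHyp A θ d ε) : ExpP (fun b => eP (oc A θ d ε) b) A.Lc := by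
  rw [← Lam_eq]
  exact H143.expP_lab_right θ h.hθ d h.hd h.hq (by have := A.hj; norm_num at this; exact this) A.t _
    fun b h => eP_apply b h

theorem expP_nbS (h : OHyp A θ d ε) : ExpP (fun b => nbS (oc A θ d ε) b) A.Lc := by
  have h1 := expP_symm A.Lc_nonneg (expP_eP' h)
  have h2 : (fun b => nbS (oc A θ d ε) b) = fun b => (eP (oc A θ d ε) b).symm := by
    funext b
    ext1 x
    rfl
  rw [h2]
  exact h1

theorem specGap (h : OHyp A θ d ε) : SpecGap (eP (oc A θ d ε)) A.lam := A.specGap_of (expP_eP' h)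

/-! ### Distance of the local codes -/

omit [Fintype (SL3 K)] in
theorem card_lab : ((Fintype.card (Fin (2 ^ (A.j * A.t))) : ℕ) : ℝ) = 2 ^ 15 * 2 ^ (A.j * A.t - 15) := by
  rw [Fintype.card_fin]
  push_cast
  rw [← pow_add]
  congr 1
  have := A.hm
  omega

theorem dist_cc (h : OHyp A θ d ε) (i : Bool) :
    TAN.Dist ((CC (oc A θ d ε) i : Submodule F _) : Set (Fin (2 ^ (A.j * A.t)) → F))
      (1 / 2 ^ 15) := by
  rw [coe_cc]
  refine dist_LC (A.dist i) (scl_ne h i) ?_
  rw [card_lab]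
  push_cast
  exact le_of_eq (by ring)

theorem lam16 : 16 * A.lam ≤ 1 / 2 ^ 15 := A.lam_small

/-! ### The facts -/

theorem oc_distE (h : OHyp A θ d ε) : DistE (oc A θ d ε) (1 / 2 ^ 16) := by
  have := distE (oc_good h) A.lam_pos.le (specGap h) (by positivity) lam16
    (dist_cc h false) (dist_cc h true)
  norm_num at this ⊢
  exact this

theorem oc_exactE (h : OHyp A θ d ε) : ExactE (oc A θ d ε) (100 * 2 ^ 15) (1 / 2 ^ 18) := by
  have := exactE (oc_good h) A.lam_pos.le (specGap h) (by positivity) (by norm_num) lam16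
    (dist_cc h false) (dist_cc h true)
  norm_num at this ⊢
  exact this

theorem oc_expandE {TG TJ : Type} {tg : TG → SL3 K} {tj : TJ → H675.JJ K d} {k : ℕ}
    (h : OHyp A θ d ε) (W : Wires (oc A θ d ε) tg tj k) : ExpandE W.wr (1 / 4) :=
  expandE W A.lam_pos.le (by have := lam16 (A := A); linarith) (specGap h)

theorem oc_contractE {TG TJ : Type} {tg : TG → SL3 K} {tj : TJ → H675.JJ K d} {k : ℕ}
    (h : OHyp A θ d ε) (D : Dat (oc A θ d ε) tg tj k)
    (hDL : Decodes D.DL (LC (A.P false) (Equiv.refl _) (scl A ε false)) (1 / 2 ^ 16))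
    (hDR : Decodes D.DR (LC (A.P true) (Equiv.refl _) (scl A ε true)) (1 / 2 ^ 16))
    (hK : 3 * k ≤ 4 * (D.W.nx * (2 ^ (A.j * A.t) * 2 ^ (A.j * A.t)))) :
    ContractE (oc A θ d ε) D (1 / 2 ^ 17) (1 / 64) := by
  have hl := lam16 (A := A)
  have hl0 := A.lam_pos.le
  have hl2 : A.lam ≤ 1 / 2 ^ 19 := by linarith
  have := contractE (oc_good h) D hl0 (specGap h) (δ := 1 / 2 ^ 16) (by positivity)
    (by norm_num) (by linarith) (by rw [← coe_cc (θ := θ) (d := d)] at hDL; exact hDL)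
    (by rw [← coe_cc (θ := θ) (d := d)] at hDR; exact hDR)
    (by simpa [Fintype.card_fin] using hK) (c₀ := 1 / 64) (by
      have h1 : (2 * A.lam / (1 / 2 ^ 16)) ^ 4 ≤ (1 / 4) ^ 4 := by
        refine pow_le_pow_left₀ (by positivity) ?_ 4
        rw [div_le_iff₀ (by positivity)]
        linarith
      have h2 : A.lam ^ 4 ≤ (1 / 2 ^ 19) ^ 4 := pow_le_pow_left₀ hl0 hl2 4
      have h3 : ((1 : ℝ) / 2 ^ 19) ^ 4 ≤ 1 / 2 ^ 16 := by norm_num
      have h4 : ((1 : ℝ) / 4) ^ 4 ≤ 1 / 256 := by norm_num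
      linarith)
  norm_num at this ⊢
  exact this

/-- **Local testability** for the twelve generators. -/
theorem oc_ltcE (h : OHyp A θ d ε) :
    LtcE (oc A θ d ε) (tg12 θ) (kapL (2 ^ (A.j * A.t)) A.kap (1 / 2 ^ 16)) := by
  have h1 := ltcE_anchor (tg := tg12 θ) (oc_good h) (closure_tg12 h.hθ)
    (fun t => ⟨t, (tg12_inv θ t).symm⟩) A.kap_pos A.Lc_nonneg A.four_Lc_le
    (θ := 1 / 2 ^ 16) (by positivity)
    (fun n i j => by
      rw [cc_eq, cc_eq]
      exact A.at_ F (SL3 K × Fin n) _ _ (scl_ne h i) (scl_ne h j) i j)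
    (expP_ltS h) (expP_nbS h)
    (fun X hX W hW hc => hdist_of A.lam_pos.le (specGap h) (by positivity) lam16
      (dist_cc h false) (dist_cc h true) X hX W hW (by
        refine lt_of_lt_of_le hc (le_of_eq ?_)
        ring))
  have h2 : ((Fintype.card (Fin (2 ^ (A.j * A.t))) : ℕ) : ℝ) = 2 ^ (A.j * A.t) := by
    rw [Fintype.card_fin]
    push_cast
    ring
  rwa [h2] at h1

end

/-- **The absolute constants.** -/
noncomputable def cst (κV : ℝ) (hκV : 0 < κV) : Cst where
  cE := 1 / 4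
  C := 100 * 2 ^ 15
  ρ₀ := 1 / 2 ^ 18
  κL ρ := min (kapL (2 ^ (A.j * A.t)) A.kap (1 / 2 ^ 16) (ρ / 2)) (ρ / 2)
  κV := κV
  θ := 1 / 2 ^ 16
  ρ₁ := 1 / 2 ^ 17
  c₀ := 1 / 64
  cE_pos := by positivity
  C_pos := by positivity
  ρ₀_pos := by positivity
  κL_pos ρ hρ := lt_min (kapL_pos (by positivity) A.kap_pos (by positivity) (by positivity))
    (by positivity)
  κV_pos := hκV
  θ_pos := by positivity
  θ_le := by norm_num

/-! ### The decoders over `Fl l` -/

/-- The decoders of the two local codes. -/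
noncomputable def dcr {l : ℕ} (εl : Fl l) (i : Bool) (y : Fin (2 ^ (A.j * A.t)) → Option (Fl l)) :
    Fin (2 ^ (A.j * A.t)) → Fl l :=
  decLC (tabB (A.P i) (2 ^ (A.j * A.t - 15))) (Equiv.refl _) l (scl A εl i) y

variable {A θ d} {l : ℕ} {εl : Fl l}

theorem decodes_dcr [Fintype (SL3 K)] (h : OHyp A θ d εl) (i : Bool) :
    Decodes (dcr A εl i) (LC (A.P i) (Equiv.refl _) (scl A εl i)) (1 / 2 ^ 16) := by
  refine decodes_LC (A.dist i) (scl_ne h i) ?_
  rw [card_lab]
  push_cast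
  exact le_of_eq (by ring)

end Vale.Agent.P330.H840
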