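import Vale.Agent.P330.W.H840.Outer
import Vale.Agent.P330.H155.Mach
import Vale.Agent.P330.H797.DynFin

/-!
# The block system of a content program over the concrete code

`CodeOK`: the facts about a code; `rfactsC`, `bfactsC`: the register system and the block system of
a content program over such a code satisfy `RFacts` and `BFacts`, with absolute constants.
-/

set_option autoImplicit false
set_option linter.unusedSectionVars false

namespace Vale.Agent.P330.H840

open Finset H155 H797 TAN Q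
open W (Abs)

variable {J Γ B F : Type} [AddCommGroup J] [Fintype J] [Group Γ] [Fintype Γ]
  [DistribMulAction Γ J] [Field F] [Fintype B]

/-- The facts about a code used by the register systems. -/
structure CodeOK (S : Cd J Γ B F) {TG : Type} (tg : TG → Γ) (κ : ℝ → ℝ) : Prop where
  good : S.Good
  exact : ExactE S (100 * 2 ^ 15) (1 / 2 ^ 18)
  dist : DistE S (1 / 2 ^ 16)
  expand : ∀ {TJ : Type} {tj : TJ → J} {k : ℕ} (W : Wires S tg tj k), ExpandE W.wr (1 / 4)
  contract : ∀ {TJ : Type} {tj : TJ → J} {k : ℕ} (D : Dat S tg tj k),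
    Decodes D.DL (S.C0 : Set (B → F)) (1 / 2 ^ 16) →
    Decodes D.DR (S.C1 : Set (B → F)) (1 / 2 ^ 16) →
    3 * k ≤ 4 * (D.W.nx * (Fintype.card B * Fintype.card B)) →
    ContractE S D (1 / 2 ^ 17) (1 / 64)
  ltc : LtcE S tg κ

section

variable {A : Abs 8 20} {K : Type} [Field K] [Fintype K] [CharP K 2] {θ : K} {d : Fin 8 → ℕ}
  {F : Type} [Field F] [Algebra (ZMod 2) F] {ε : F} [Fintype (SL3 K)]

/-- The concrete outer code. -/
theorem codeOK (h : OHyp A θ d ε) :
    CodeOK (oc A θ d ε) (tg12 θ) (kapL (2 ^ (A.j * A.t)) A.kap (1 / 2 ^ 16)) where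
  good := oc_good h
  exact := oc_exactE h
  dist := oc_distE h
  expand W := oc_expandE h W
  contract D hDL hDR hK := oc_contractE h D
    (by rw [← coe_cc (θ := θ) (d := d)]; exact hDL) (by rw [← coe_cc (θ := θ) (d := d)]; exact hDR)
    (by simpa [Fintype.card_fin] using hK)
  ltc := oc_ltcE h

end

variable (A : Abs 8 20) {iJ iG : Type} {n k : ℕ} {R : RS J Γ B F iJ iG n}
  {W : Wires R.S R.g.gG R.g.sJ k} {DL DR : (B → Option F) → B → F} {D : Dyn (Fin n → J → F)}

/-- **R1-R6** for a content program over the concrete code. -/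
theorem rfactsC (hC : CodeOK R.S R.g.gG (kapL (2 ^ (A.j * A.t)) A.kap (1 / 2 ^ 16)))
    (hK : R.KitOK) (hP : R.ProgOK) (hpos : 0 < n + R.Q.HL) {κV : ℝ} (hκV : 0 < κV)
    (hκ : κV < 1 / 2 ^ 16) (hM : R.MachOK D κV)
    (hDL : Decodes DL (R.S.C0 : Set (B → F)) (1 / 2 ^ 16))
    (hDR : Decodes DR (R.S.C1 : Set (B → F)) (1 / 2 ^ 16))
    (hk : 3 * k ≤ 4 * (W.nx * (Fintype.card B * Fintype.card B))) :
    RFacts (R.sysOf W DL DR D).sys (cst A κV hκV) :=
  R.rfacts hC.good hK hP (cst A κV hκV) hpos hM hκ (hC.expand W) hC.exact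
    (hC.contract (R.sysOf W DL DR D) hDL hDR hk) hC.dist hC.ltc fun _ _ => le_rfl

/-- **F1-F6** for a content program over the concrete code. -/
theorem bfactsC (hC : CodeOK R.S R.g.gG (kapL (2 ^ (A.j * A.t)) A.kap (1 / 2 ^ 16)))
    (hK : R.KitOK) (hP : R.ProgOK) (hpos : 0 < n + R.Q.HL) {κV : ℝ} (hκV : 0 < κV)
    (hκ : κV < 1 / 2 ^ 16) (hM : R.MachOK D κV)
    (hDL : Decodes DL (R.S.C0 : Set (B → F)) (1 / 2 ^ 16))
    (hDR : Decodes DR (R.S.C1 : Set (B → F)) (1 / 2 ^ 16))
    (hk : 3 * k ≤ 4 * (W.nx * (Fintype.card B * Fintype.card B))) :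
    BFacts (R.sysOf W DL DR D).sys.bsys (kap (cst A κV hκV) k) (1 / 2 ^ 16) (1 / 2 ^ 17)
      (1 / 64) :=
  bfacts (rfactsC A hC hK hP hpos hκV hκ hM hDL hDR hk)

end Vale.Agent.P330.H840
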