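import Vale.Agent.P330.W.H840.Outer
import Vale.Agent.P330.H247.SizeI
import Vale.Agent.P330.W.H604.Inst
import Vale.Agent.P330.H933.Gen

/-!
# The concrete parameters of the outer code of an instance

Constants: `A0` (local codes), `C1`, `c0`.  For an instance `I` of End-of-Line: `lqJ`, `dJ`, `kapJ`,
`leJ`.  `ohypJ`: the hypotheses `OHyp` hold for every instance.
-/

set_option autoImplicit false
set_option linter.unusedSectionVars false

namespace Vale.Agent.P330.H840

open Finset H155 H797 TAN Polynomial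
open W (Abs)
open H933 (Fl th eF card_Fl)
open H604 (cG card_SL3 cG_le cG_pos)
open H743 (kI aI mpI mpI_good computes_mpI fits_kI Fits)

/-- **The absolute codes and constants.** -/
noncomputable def A0 : Abs 8 20 := (W.exists_abs 8 20 (by norm_num)).some

/-- The number of labels. -/
noncomputable def nB0 : ℕ := 2 ^ (A0.j * A0.t)

/-- The constant of the small field. -/
def C1 : ℕ := 320

/-- The constant of the dimension. -/
def c0 : ℕ := 3

theorem hC : 64 * (c0 + 2) ≤ C1 := by decide

/-- The level of the small field. -/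
def lqJ (I : EndOfLine) : ℕ := H247.lqI C1 I

/-- The degrees. -/
def dJ (I : EndOfLine) : Fin 8 → ℕ := H247.dI C1 c0 I

/-- The level of the big field. -/
noncomputable def leJ (I : EndOfLine) : ℕ := H247.leI C1 c0 (2 ^ (A0.j * A0.t)) I

/-- The logarithm of the cardinality of `J`. -/
noncomputable def kapJ (I : EndOfLine) : ℕ := H675.kap (lqJ I) (dJ I)

theorem kapJ_eq (I : EndOfLine) : kapJ I = H247.kapI C1 c0 I := H247.kap_eq hC I

theorem degJ (I : EndOfLine) : H675.DegOK (Fl (lqJ I)) (dJ I) := H247.degOK hC I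

/-- **The hypotheses of the outer code.** -/
theorem ohypJ (I : EndOfLine) : OHyp A0 (th (lqJ I)) (dJ I) (th (leJ I)) where
  hθ := H604.closure_th _
  hd := (degJ I).pos
  hq := (degJ I).le
  hgen f hf hdeg := H933.aeval_th_ne_zero hf (hdeg.trans_lt (by
    have h := H247.card_SL3_mul_lt (C1 := C1) (c0 := c0) (D := 2 ^ (A0.j * A0.t)) I
    exact h))

theorem kapJ_lt (I : EndOfLine) : kapJ I < eF (leJ I) := by
  rw [kapJ_eq]
  exact H247.kapI_lt I

theorem kI_add_le (I : EndOfLine) : kI I + 3 ≤ kapJ I := by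
  rw [kapJ_eq]
  exact H247.kI_add_le I

theorem two_pow_eF_le_cG (l : ℕ) : 2 ^ eF l ≤ cG l := by
  classical
  rw [← card_Fl l, ← card_SL3 l]
  refine Fintype.card_le_of_injective (fun x : Fl l =>
    (⟨Matrix.transvection (0 : Fin 3) 1 x, Matrix.det_transvection_of_ne _ _ (by decide) x⟩ :
      SL3 (Fl l))) fun x y h => ?_
  have h1 := congrArg (fun g : SL3 (Fl l) => g.1 0 1) h
  simpa [Matrix.transvection, Matrix.single] using h1

/-- `κ` is at most the number of pairs. -/
theorem kapJ_le (I : EndOfLine) : kapJ I ≤ cG (lqJ I) * 2 ^ (A0.j * A0.t) := by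
  have h1 := H247.kap_le C1 c0 (kI I)
  have h0 : kapJ I = H247.kap C1 c0 (kI I) := kapJ_eq I
  have h2 : H247.fq C1 (kI I) ≤ cG (lqJ I) := (H247.fq_le_qq C1 (kI I)).trans
    (two_pow_eF_le_cG (lqJ I))
  have h3 : C1 * (kI I + 1) ≤ cG (lqJ I) :=
    (H247.le_qq C1 (kI I)).trans (two_pow_eF_le_cG (lqJ I))
  have h4 : (2 : ℕ) ^ 5 ≤ 2 ^ (A0.j * A0.t) := Nat.pow_le_pow_right (by norm_num) (by
    have := A0.hm
    omega)
  have h5 : cG (lqJ I) * 2 ^ 5 ≤ cG (lqJ I) * 2 ^ (A0.j * A0.t) := Nat.mul_le_mul_left _ h4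
  rw [h0]
  simp only [C1, c0] at *
  omega

/-! ### The machine -/

/-- The machine of the instance. -/
noncomputable def mpJ (I : EndOfLine) : H16.MP := mpI I (kI I) (aI I) (kapJ I)

theorem mpJ_good (I : EndOfLine) : (mpJ I).Good := mpI_good (fits_kI I) (kI_add_le I)

theorem computes_mpJ (I : EndOfLine) : H743.Computes (mpJ I) I := computes_mpI (fits_kI I)

end Vale.Agent.P330.H840
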