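import Vale.Agent.P330.W.H840.Sys
import Vale.Agent.P330.W.H709.LTCG
import Vale.Agent.P330.W.H972.Match

/-!
# The group `J ⋊ Γ` and its translations on `J × Γ`
-/

set_option autoImplicit false

namespace Vale.Agent.P330.H840

open Finset H155 H797 TAN
open W.H709 (ExpP)

section

variable (J Γ : Type) [AddCommGroup J] [Group Γ] [DistribMulAction Γ J]

/-- The action of `Γ` on `J`, multiplicatively. -/
def actHom : Γ →* MulAut (Multiplicative J) where
  toFun v := AddEquiv.toMultiplicative (DistribMulAction.toAddEquiv J v)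
  map_one' := by
    refine MulEquiv.ext fun x => ?_
    exact congrArg Multiplicative.ofAdd (one_smul Γ (Multiplicative.toAdd x))
  map_mul' v w := by
    refine MulEquiv.ext fun x => ?_
    exact congrArg Multiplicative.ofAdd (mul_smul v w (Multiplicative.toAdd x))

/-- The group `J ⋊ Γ`. -/
abbrev Gp : Type := Multiplicative J ⋊[actHom J Γ] Γ

variable {J Γ}

/-- The elements of the group as pairs. -/
def gpE : Gp J Γ ≃ J × Γ where
  toFun g := (Multiplicative.toAdd g.left, g.right)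
  invFun h := ⟨Multiplicative.ofAdd h.1, h.2⟩
  left_inv _ := rfl
  right_inv _ := rfl

theorem gpE_mul (g h : Gp J Γ) :
    gpE (g * h) = ((gpE g).1 + (gpE g).2 • (gpE h).1, (gpE g).2 * (gpE h).2) := rfl

@[simp] theorem gpE_one : gpE (1 : Gp J Γ) = (0, 1) := rfl

theorem gpE_inv (g : Gp J Γ) : gpE g⁻¹ = (-((gpE g).2⁻¹ • (gpE g).1), (gpE g).2⁻¹) := by
  have h1 : gpE (g * g⁻¹) = (0, 1) := by rw [mul_inv_cancel, gpE_one]
  rw [gpE_mul, Prod.mk.injEq] at h1
  have h2 : (gpE g⁻¹).2 = (gpE g).2⁻¹ := (inv_eq_of_mul_eq_one_right h1.2).symm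
  have h3 : (gpE g⁻¹).1 = -((gpE g).2⁻¹ • (gpE g).1) := by
    have h4 := eq_neg_of_add_eq_zero_right h1.1
    rw [← inv_smul_smul (gpE g).2 (gpE g⁻¹).1, h4, smul_neg]
  exact Prod.ext h3 h2

noncomputable instance [Fintype J] [Fintype Γ] : Fintype (Gp J Γ) :=
  Fintype.ofEquiv _ gpE.symm

theorem card_gp [Fintype J] [Fintype Γ] : Fintype.card (Gp J Γ) = Fintype.card (J × Γ) :=
  Fintype.card_congr gpE

/-- The embedding of `J`. -/
def gpJ : Multiplicative J →* Gp J Γ := SemidirectProduct.inl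

/-- The embedding of `Γ`. -/
def gpG : Γ →* Gp J Γ := SemidirectProduct.inr

theorem gpE_gpJ (x : J) : gpE (gpJ (Multiplicative.ofAdd x) : Gp J Γ) = (x, 1) := rfl

theorem gpE_gpG (v : Γ) : gpE (gpG v : Gp J Γ) = (0, v) := rfl

theorem gp_act (v : Γ) (x : J) : (gpG v : Gp J Γ) * gpJ (Multiplicative.ofAdd x) =
    gpJ (Multiplicative.ofAdd (v • x)) * gpG v := by
  apply gpE.injective
  simp [gpE_mul, gpE_gpJ, gpE_gpG]

theorem gp_gen (g : Gp J Γ) : ∃ x v, g = gpJ (Multiplicative.ofAdd x) * gpG v := by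
  refine ⟨(gpE g).1, (gpE g).2, ?_⟩
  apply gpE.injective
  simp [gpE_mul, gpE_gpJ, gpE_gpG]

/-! ### Translations -/

theorem gpE_left (a g : Gp J Γ) : gpE (a * g) = ltP (gpE a).1 (gpE a).2 (gpE g) := rfl

variable {B F : Type} [Field F] {S : Cd J Γ B F} {α : B → Gp J Γ}

theorem gpE_nb (hb : ∀ b, S.bet b = (gpE (α b)).1) (he : ∀ b, S.eta b = (gpE (α b)).2)
    (two : ∀ x : J, x + x = 0) (b : B) (g : Gp J Γ) :
    gpE (g * (α b)⁻¹) = S.nb b (gpE g) := by
  have hneg : ∀ x : J, -x = x := fun x => neg_eq_of_add_eq_zero_left (two x)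
  rw [gpE_mul, gpE_inv]
  unfold Cd.nb
  rw [hb, he, hneg, smul_smul]

theorem gpE_right (hb : ∀ b, S.bet b = (gpE (α b)).1) (he : ∀ b, S.eta b = (gpE (α b)).2)
    (two : ∀ x : J, x + x = 0) (b : B) (g : Gp J Γ) :
    gpE (g * α b) = eP S b (gpE g) := by
  have h := gpE_nb hb he two b (g * α b)
  rw [mul_inv_cancel_right] at h
  rw [h, eP_nb]

variable [Fintype J] [Fintype Γ] [Fintype B]

theorem expP_eP (hb : ∀ b, S.bet b = (gpE (α b)).1) (he : ∀ b, S.eta b = (gpE (α b)).2)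
    (two : ∀ x : J, x + x = 0) {L : ℝ} (h : ExpP (fun b => Equiv.mulRight (α b)) L) :
    ExpP (fun b => eP S b) L := by
  intro f hf
  have h1 := h (fun g => f (gpE g)) (by rw [Equiv.sum_comp gpE f]; exact hf)
  rw [Equiv.sum_comp gpE fun x => f x ^ 2] at h1
  rw [← Equiv.sum_comp gpE]
  refine le_trans (le_of_eq ?_) h1
  refine sum_congr rfl fun g _ => ?_
  congr 1
  refine sum_congr rfl fun b _ => ?_
  rw [Equiv.coe_mulRight, gpE_right hb he two]

theorem specGap_eP (hb : ∀ b, S.bet b = (gpE (α b)).1) (he : ∀ b, S.eta b = (gpE (α b)).2)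
    (two : ∀ x : J, x + x = 0) {lam : ℝ}
    (h : ExpP (fun b => Equiv.mulRight (α b)) ((lam * Fintype.card B) ^ 2)) :
    SpecGap (eP S) lam :=
  expP_eP hb he two h

theorem expP_ltP (hb : ∀ b, S.bet b = (gpE (α b)).1) (he : ∀ b, S.eta b = (gpE (α b)).2)
    {L : ℝ} (h : ExpP (fun b => Equiv.mulLeft (α b)) L) :
    ExpP (fun b => ltP (S.bet b) (S.eta b)) L := by
  intro f hf
  have h1 := h (fun g => f (gpE g)) (by rw [Equiv.sum_comp gpE f]; exact hf)
  rw [Equiv.sum_comp gpE fun x => f x ^ 2] at h1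
  rw [← Equiv.sum_comp gpE]
  refine le_trans (le_of_eq ?_) h1
  refine sum_congr rfl fun g _ => ?_
  congr 1
  refine sum_congr rfl fun b _ => ?_
  rw [Equiv.coe_mulLeft, gpE_left, ← hb, ← he]

end

end Vale.Agent.P330.H840
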