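import Vale.Agent.P330.W.H840.RFacts
import Vale.Agent.P330.W.H709.Anch
import Vale.Agent.P330.W.H624.Facts

/-!
# Local testability of the base registers

`ltcE_anchor`: the hypothesis `LtcE` of `Dat.rfacts` from the anchoring theorem.
-/

set_option autoImplicit false

namespace Vale.Agent.P330.H840

open Finset H155 H797 TAN
open W.H709 (ExpP CodeAT CC ltS nbS Chk anchor)
open W.H624 (fr_eq isWord_of_isM)

variable {J Γ B F : Type} [AddCommGroup J] [Fintype J] [Group Γ] [Fintype Γ]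
  [DistribMulAction Γ J] [Field F]

variable {S : Cd J Γ B F} {TG : Type} {tg : TG → Γ}

omit [Fintype J] [Fintype Γ] in
theorem chk_of_bst {Z : J × Γ → Γ → B → B → F} {h : J × Γ} (H : Bst S tg Z h) :
    Chk S (Set.range tg) Z h where
  d1 := H.1
  d2 := H.2.1
  d3 := H.2.2.1
  d4 := H.2.2.2.1
  s := H.2.2.2.2.1
  u1 := H.2.2.2.2.2.1
  u2 := by rintro γ _ ⟨t, rfl⟩; exact H.2.2.2.2.2.2 γ t

/-- The constant of local testability: `D` labels, agreement constant `κ`, distance `θ`. -/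
noncomputable def kapL (D κ θ ρ : ℝ) : ℝ :=
  min (min (κ ^ 2 / (128 * D ^ 3 * (2 * D + 1))) (θ / (2 * (8 * (2 * D + 1) ^ 2 + 1))))
    (ρ / (4 * (2 * D + 1) ^ 2))

theorem kapL_pos {D κ θ ρ : ℝ} (hD : 0 < D) (hκ : 0 < κ) (hθ : 0 < θ) (hρ : 0 < ρ) :
    0 < kapL D κ θ ρ := by
  unfold kapL
  refine lt_min (lt_min ?_ ?_) ?_ <;> positivity

/-- **Local testability** from anchoring. -/
theorem ltcE_anchor [Fintype B] [Nonempty B] (hS : S.Good)
    (hT : Subgroup.closure (Set.range tg) = ⊤) (hTi : ∀ t, ∃ t', tg t' = (tg t)⁻¹)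
    {κ L θ : ℝ} (hκ : 0 < κ) (hL0 : 0 ≤ L) (hL : 4 * L ≤ κ ^ 2) (hθ : 0 < θ)
    (hAT : ∀ (n : ℕ) (i j : Bool), CodeAT (Γ × Fin n) (CC S i) (CC S j) κ)
    (h1 : ExpP (fun a => ltS (S.bet a) (S.eta a)) L) (h3 : ExpP (fun b => nbS S b) L)
    (hdist : ∀ X : J × Γ → B → F, S.IsM X → ∀ W : Finset (J × Γ), (∀ h ∉ W, X h = 0) →
      (#W : ℝ) < θ * Fintype.card (J × Γ) → X = 0) :
    LtcE S tg (kapL (Fintype.card B : ℕ) κ θ) := by
  classical
  intro ρ hρ n W hW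
  set D : ℝ := ((Fintype.card B : ℕ) : ℝ) with hD
  have hD0 : 0 < D := by rw [hD]; exact_mod_cast Fintype.card_pos
  have hn : (0 : ℝ) < Fintype.card (J × Γ) := cardV_pos
  set Bad : Finset (J × Γ) := univ.filter fun h => ¬ ∀ k, Bst S tg (W k) h with hBad
  have hfr : fr (fun h => ¬ ∀ k, Bst S tg (W k) h) = (#Bad : ℝ) / Fintype.card (J × Γ) :=
    fr_eq _ _ fun x => by rw [hBad, mem_filter]; simp
  rw [hfr, div_le_iff₀ hn] at hW
  have hB1 : (#Bad : ℝ) ≤ κ ^ 2 / (128 * D ^ 3 * (2 * D + 1)) * Fintype.card (J × Γ) :=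
    hW.trans (mul_le_mul_of_nonneg_right ((min_le_left _ _).trans (min_le_left _ _)) hn.le)
  have hB2 : (#Bad : ℝ) ≤ θ / (2 * (8 * (2 * D + 1) ^ 2 + 1)) * Fintype.card (J × Γ) :=
    hW.trans (mul_le_mul_of_nonneg_right ((min_le_left _ _).trans (min_le_right _ _)) hn.le)
  have hB3 : (#Bad : ℝ) ≤ ρ / (4 * (2 * D + 1) ^ 2) * Fintype.card (J × Γ) :=
    hW.trans (mul_le_mul_of_nonneg_right (min_le_right _ _) hn.le)
  obtain ⟨u, V, hV1, hV2⟩ := anchor (n := n) hS hT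
    (by rintro _ ⟨t, rfl⟩; obtain ⟨t', ht⟩ := hTi t; exact ⟨t', ht⟩) hκ hL0 hL (hAT n) h1 h3
    hdist W Bad
    (fun h hh k => chk_of_bst (by
      rw [hBad, mem_filter] at hh
      push Not at hh
      exact hh (mem_univ _) k))
    (by
      calc 64 * D ^ 3 * (2 * D + 1) * #Bad
          ≤ 64 * D ^ 3 * (2 * D + 1) *
            (κ ^ 2 / (128 * D ^ 3 * (2 * D + 1)) * Fintype.card (J × Γ)) := by gcongr
        _ = κ ^ 2 * Fintype.card (J × Γ) / 2 := by field_simp; ring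
        _ < κ ^ 2 * Fintype.card (J × Γ) := by
            have : 0 < κ ^ 2 * Fintype.card (J × Γ) := by positivity
            linarith)
    (by
      calc (8 * (2 * D + 1) ^ 2 + 1) * (#Bad : ℝ)
          ≤ (8 * (2 * D + 1) ^ 2 + 1) *
            (θ / (2 * (8 * (2 * D + 1) ^ 2 + 1)) * Fintype.card (J × Γ)) := by gcongr
        _ = θ * Fintype.card (J × Γ) / 2 := by field_simp
        _ < θ * Fintype.card (J × Γ) := by
            have : 0 < θ * Fintype.card (J × Γ) := by positivity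
            linarith)
  refine ⟨u, ?_⟩
  have h5 : fr (fun h => ∃ k, W k h ≠ S.Z (u k) h) ≤ (#V : ℝ) / Fintype.card (J × Γ) := by
    rw [← fr_eq (fun h => h ∈ V) V fun _ => Iff.rfl]
    refine fr_mono fun h hh => ?_
    by_contra hc
    obtain ⟨k, hk⟩ := hh
    exact hk (hV2 h hc k)
  refine h5.trans ?_
  rw [div_le_iff₀ hn]
  have h6 : (#V : ℝ) ≤ 4 * (2 * D + 1) ^ 2 * #Bad := by
    rw [hD]; exact_mod_cast hV1
  calc (#V : ℝ) ≤ 4 * (2 * D + 1) ^ 2 * #Bad := h6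
    _ ≤ 4 * (2 * D + 1) ^ 2 * (ρ / (4 * (2 * D + 1) ^ 2) * Fintype.card (J × Γ)) := by gcongr
    _ = ρ * Fintype.card (J × Γ) := by field_simp

/-- Distance for words which vanish outside a small set. -/
theorem hdist_of [Fintype B] [Nonempty B] {lam δ : ℝ} (hlam : 0 ≤ lam)
    (hs : SpecGap (eP S) lam) (hδ : 0 < δ) (hδl : 16 * lam ≤ δ)
    (h0 : TAN.Dist (S.C0 : Set (B → F)) δ) (h1 : TAN.Dist (S.C1 : Set (B → F)) δ)
    (X : J × Γ → B → F) (hX : S.IsM X) (W : Finset (J × Γ)) (hW : ∀ h ∉ W, X h = 0)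
    (hc : (#W : ℝ) < δ / 2 * Fintype.card (J × Γ)) : X = 0 := by
  refine word_eq hlam hs hδ (by linarith) (fun _ => h0) (fun _ => h1)
    (isWord_of_isM hX) (isWord_of_isM Cd.IsM.zero) (le_trans ?_ hc.le)
  have : #(errL X 0) ≤ #W := by
    refine card_le_card fun h hh => ?_
    by_contra hc'
    exact (mem_errL.1 hh) (hW h hc')
  exact_mod_cast this

end Vale.Agent.P330.H840
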