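import Vale.Agent.P330.W.H840.Sys

/-!
# The facts about the concrete register system

The interface `RFacts` for `Dat.sys`, from the facts about single words.
-/

set_option autoImplicit false

namespace Vale.Agent.P330.H840

open Finset H155 H797 Q

variable {J Γ B F : Type} [AddCommGroup J] [Fintype J] [Group Γ] [Fintype Γ]
  [DistribMulAction Γ J] [Field F]

section fr

variable {Om : Type} [Fintype Om]

theorem fr_mono {P Q : Om → Prop} (h : ∀ x, P x → Q x) : fr P ≤ fr Q := by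
  classical
  unfold fr
  refine div_le_div_of_nonneg_right ?_ (Nat.cast_nonneg _)
  refine Nat.cast_le.2 (card_le_card fun x hx => ?_)
  rw [mem_filter] at hx ⊢
  exact ⟨hx.1, h x hx.2⟩

theorem fr_or (P Q : Om → Prop) : fr (fun x => P x ∨ Q x) ≤ fr P + fr Q := by
  classical
  unfold fr
  rw [← add_div]
  refine div_le_div_of_nonneg_right ?_ (Nat.cast_nonneg _)
  rw [← Nat.cast_add]
  refine Nat.cast_le.2 (le_trans (card_le_card (fun x hx => ?_)) (card_union_le _ _))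
  have hx' : P x ∨ Q x := by simpa using hx
  rw [mem_union, mem_filter, mem_filter]
  rcases hx' with h | h
  · exact Or.inl ⟨mem_univ _, h⟩
  · exact Or.inr ⟨mem_univ _, h⟩

end fr

/-- The seven local conditions on a bundle at the site `h`. -/
def Bst (S : Cd J Γ B F) {TG : Type} (tg : TG → Γ) (W : J × Γ → Γ → B → B → F)
    (h : J × Γ) : Prop :=
  (∀ γ b', W h γ b' ∈ S.C0) ∧
  (∀ γ b', (fun b => W (S.nb b h) γ b' b) ∈ S.C1) ∧
  (∀ γ b, (fun b' => W h γ b' b) ∈ S.C0) ∧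
  (∀ γ b, (fun b' => W (lt (S.bet b') (S.eta b') h) (γ * (S.eta b')⁻¹) b' b) ∈ S.C1) ∧
  (∀ γ b' b, W h γ b' b = W (inv2 h) (γ * h.2) b b') ∧
  (∀ γ, ∀ b' ∈ S.info, W h γ b' = W h γ S.b0) ∧
  (∀ γ t, W h (γ * tg t) S.b0 = W (lt 0 (tg t) h) γ S.b0)

/-- Local testability of the bundles. -/
def LtcE (S : Cd J Γ B F) {TG : Type} (tg : TG → Γ) (κ : ℝ → ℝ) : Prop :=
  ∀ ρ : ℝ, 0 < ρ → ∀ (n : ℕ) (W : Fin n → J × Γ → Γ → B → B → F),
    fr (fun h => ¬ ∀ k, Bst S tg (W k) h) ≤ κ ρ →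
    ∃ x : Fin n → J → F, fr (fun h => ∃ k, W k h ≠ S.Z (x k) h) ≤ ρ

variable {S : Cd J Γ B F} {TG TJ : Type} {tg : TG → Γ} {tj : TJ → J} {K : ℕ}

omit [Fintype Γ] in
/-- The bundle of a content satisfies the local conditions. -/
theorem bst_Z (hS : S.Good) (u : J → F) (h : J × Γ) : Bst S tg (S.Z u) h :=
  ⟨fun _ _ => Cd.Z_D1 hS u h _ _, fun _ _ => Cd.Z_D2 hS u h _ _, fun _ _ => Cd.Z_D3 hS u h _ _,
    fun _ _ => Cd.Z_D4 hS u h _ _, fun _ _ _ => Cd.Z_S hS u h _ _ _,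
    fun _ _ hb => Cd.Z_U1 hS u h _ hb, fun _ _ => Cd.Z_U2 hS u h _ _⟩

omit [Fintype Γ] in
/-- Bundles which satisfy the local conditions everywhere are bundles of contents. -/
theorem exists_content (hS : S.Good) (hT : Subgroup.closure (Set.range tg) = ⊤)
    (hTi : ∀ t, ∃ t', tg t' = (tg t)⁻¹) {W : J × Γ → Γ → B → B → F}
    (hW : ∀ h, Bst S tg W h) : ∃ u : J → F, W = S.Z u :=
  Cd.pin hS (Set.range tg) hT
    (by rintro _ ⟨t, rfl⟩; obtain ⟨t', ht⟩ := hTi t; exact ⟨t', ht⟩) W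
    (fun h => (hW h).2.2.1) (fun h => (hW h).2.2.2.1) (fun h => (hW h).2.2.2.2.1)
    (fun h => (hW h).2.2.2.2.2.1)
    (by rintro h γ _ ⟨t, rfl⟩; exact (hW h).2.2.2.2.2.2 γ t)

/-- Local testability from the correction theorem. -/
theorem ltcE_of (hS : S.Good) (hT : Subgroup.closure (Set.range tg) = ⊤)
    (hTi : ∀ t, ∃ t', tg t' = (tg t)⁻¹) {κ : ℝ → ℝ}
    (h : ∀ ρ : ℝ, 0 < ρ → ∀ (n : ℕ) (W : Fin n → J × Γ → Γ → B → B → F),
      fr (fun h => ¬ ∀ k, Bst S tg (W k) h) ≤ κ ρ →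
      ∃ W' : Fin n → J × Γ → Γ → B → B → F, (∀ k h, Bst S tg (W' k) h) ∧
        fr (fun h => ∃ k, W k h ≠ W' k h) ≤ ρ) : LtcE S tg κ := by
  intro ρ hρ n W hW
  obtain ⟨W', h1, h2⟩ := h ρ hρ n W hW
  choose x hx using fun k => exists_content hS hT hTi (h1 k)
  refine ⟨x, (fr_mono fun h h3 => ?_).trans h2⟩
  obtain ⟨k, hk⟩ := h3
  exact ⟨k, by rw [hx k]; exact hk⟩

namespace Dat

variable (A : Dat S tg tj K)

omit [Fintype Γ] in
theorem row_base (x : Fin A.n → J → F) (j : Fin A.nb) (h : J × Γ) :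
    A.row x j h = S.Z (x (A.ν j).1) h (A.ν j).2.1 (A.ν j).2.2 := by
  unfold row
  rw [dif_pos j.2]

omit [Fintype Γ] in
theorem row_further (x : Fin A.n → J → F) (j : ℕ) (h : J × Γ) :
    A.row x (A.nb + j) h = S.E (A.cont x j) h := by
  unfold row
  rw [dif_neg (by omega)]
  simp

omit [Fintype Γ] in
/-- Every register is a word. -/
theorem row_eq_E (hS : S.Good) (x : Fin A.n → J → F) (j : ℕ) :
    ∃ c : J → F, ∀ h, A.row x j h = S.E c h := by
  by_cases hj : j < A.nb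
  · refine ⟨fun y => conv (x (A.ν ⟨j, hj⟩).1) (S.G (A.ν ⟨j, hj⟩).2.1 (A.ν ⟨j, hj⟩).2.2)
      ((A.ν ⟨j, hj⟩).2.1 • y), fun h => ?_⟩
    rw [← Cd.Z_eq_E hS]
    unfold row
    rw [dif_pos hj]
  · refine ⟨A.cont x (j - A.nb), fun h => ?_⟩
    unfold row
    rw [dif_neg hj]

omit [Fintype Γ] in
theorem bs_stk (x : Fin A.n → J → F) (h : J × Γ) (k : Fin A.n) (γ : Γ) (b' : B) :
    A.bs (A.sys.stk x A.nb h) k γ b' = S.Z (x k) h γ b' := by
  funext b
  have h1 : ((A.ν.symm (k, γ, b') : Fin A.nb) : ℕ) < ((List.range A.nb).map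
      fun j => A.sys.row x j h).length := by
    simp
  unfold bs
  rw [show A.sys.stk x A.nb h = (List.range A.nb).map fun j => A.sys.row x j h from rfl]
  rw [List.getD_eq_getElem _ _ h1, List.getElem_map, List.getElem_range]
  change A.row x _ h b = _
  rw [row_base]
  simp

omit [Fintype Γ] in
theorem bchk_row (hS : S.Good) (x : Fin A.n → J → F) (h : J × Γ) :
    A.bchk h (fun i => A.sys.stk x A.nb (A.W.wr i h)) := by
  refine ⟨by simp [Sys.stk], fun k => ?_⟩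
  simp only [bs_stk, A.W.own_eq, A.W.nbw_eq, A.W.lw_eq, A.W.iw_eq, A.W.gw_eq]
  exact bst_Z hS (x k) h

omit [Fintype Γ] in
theorem chk_row (hS : S.Good) (x : Fin A.n → J → F) (j : ℕ) (h : J × Γ) :
    A.chk j h (fun i => A.row x j (A.W.wr i h)) := by
  obtain ⟨c, hc⟩ := A.row_eq_E hS x j
  unfold chk
  simp only [hc, A.W.own_eq, A.W.nbw_eq]
  exact ⟨(Cd.E_isM hS c).1 h, (Cd.E_isM hS c).2 h⟩

omit [Fintype Γ] in
theorem eq_stk_of (x : Fin A.n → J → F) (h : J × Γ) {l : List (B → F)} (h1 : l.length = A.nb)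
    (h2 : ∀ k, (fun γ b' => A.bs l k γ b') = S.Z (x k) h) : l = A.sys.stk x A.nb h := by
  refine List.ext_getElem (by simp [Sys.stk, h1]) fun j hj1 hj2 => ?_
  have hj : j < A.nb := by omega
  have h3 := congrFun (congrFun (h2 (A.ν ⟨j, hj⟩).1) (A.ν ⟨j, hj⟩).2.1) (A.ν ⟨j, hj⟩).2.2
  have h4 : A.bs l (A.ν ⟨j, hj⟩).1 (A.ν ⟨j, hj⟩).2.1 (A.ν ⟨j, hj⟩).2.2 = l[j] := by
    funext b
    unfold bs
    simp [hj1]
  rw [← h4]
  have h5 : (A.sys.stk x A.nb h)[j] = A.row x j h := by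
    simp [Sys.stk, sys]
  rw [h5]
  have h6 := A.row_base x ⟨j, hj⟩ h
  rw [h6, ← h3]

/-- Local testability of the base registers. -/
theorem ltc {κ : ℝ → ℝ} (hL : LtcE S tg κ) {ρ : ℝ} (hρ : 0 < ρ) (u : J × Γ → List (B → F))
    (hu : fr (fun h => ¬ A.bchk h (fun i => u (A.W.wr i h))) ≤ min (κ (ρ / 2)) (ρ / 2)) :
    ∃ x, fr (fun h => u h ≠ A.sys.stk x A.nb h) ≤ ρ := by
  have h0 : ∀ h, A.bchk h (fun i => u (A.W.wr i h)) → (u h).length = A.nb ∧
      ∀ k, Bst S tg (fun h γ b' => A.bs (u h) k γ b') h := by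
    rintro h ⟨h1, h2⟩
    simp only [A.W.own_eq, A.W.nbw_eq, A.W.lw_eq, A.W.iw_eq, A.W.gw_eq] at h1 h2
    exact ⟨h1, h2⟩
  obtain ⟨x, hx⟩ := hL (ρ / 2) (by positivity) A.n (fun k h γ b' => A.bs (u h) k γ b')
    (le_trans (fr_mono fun h => by
      intro h1 h2
      exact h1 fun k => (h0 h h2).2 k) (hu.trans (min_le_left _ _)))
  refine ⟨x, ?_⟩
  calc fr (fun h => u h ≠ A.sys.stk x A.nb h)
      ≤ fr (fun h => (¬ A.bchk h (fun i => u (A.W.wr i h))) ∨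
          ∃ k, (fun γ b' => A.bs (u h) k γ b') ≠ S.Z (x k) h) := by
        refine fr_mono fun h h1 => ?_
        by_contra h2
        push Not at h2
        exact h1 (A.eq_stk_of x h (h0 h h2.1).1 h2.2)
    _ ≤ _ := fr_or _ _
    _ ≤ ρ / 2 + ρ / 2 := add_le_add (hu.trans (min_le_right _ _)) hx
    _ = ρ := by ring

omit [Fintype Γ] in
theorem stk_ne (hS : S.Good) {x x' : Fin A.n → J → F} {k : Fin A.n} {h : J × Γ}
    (hk : S.E (x k) h ≠ S.E (x' k) h) : A.sys.stk x A.nb h ≠ A.sys.stk x' A.nb h := by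
  intro h1
  apply hk
  rw [← Cd.Z_b0 hS, ← Cd.Z_b0 hS, ← A.bs_stk, ← A.bs_stk, h1]

theorem dist (hS : S.Good) {θ : ℝ} (hD : DistE S θ) (x x' : Fin A.n → J → F) (hx : x ≠ x') :
    θ ≤ fr (fun h => A.sys.stk x A.nb h ≠ A.sys.stk x' A.nb h) := by
  obtain ⟨k, hk⟩ := Function.ne_iff.1 hx
  exact (hD _ _ hk).trans (fr_mono fun h h1 => A.stk_ne hS h1)

/-- **The facts about the concrete register system.** -/
theorem rfacts (hS : S.Good) (c : Cst) (hL : 0 < A.L)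
    (hExp : ExpandE A.W.wr c.cE) (hEx : ExactE S c.C c.ρ₀) (hCo : ContractE S A c.ρ₁ c.c₀)
    (hDi : DistE S c.θ) {κ : ℝ → ℝ} (hLtc : LtcE S tg κ)
    (hκ : ∀ ρ, 0 < ρ → c.κL ρ ≤ min (κ (ρ / 2)) (ρ / 2))
    (hlink : ∀ x j h, j < A.L → S.E (A.cont x j) h =
      A.link j h (fun i => A.sys.stk x (A.nb + j) (A.W.wr i h)))
    (hv : ∀ x, A.D.Valid x → ∀ h, A.vchk h (fun i => A.sys.stk x (A.nb + A.L) (A.W.wr i h)))
    (hv' : ∀ x, fr (fun h => ¬ A.vchk h (fun i => A.sys.stk x (A.nb + A.L) (A.W.wr i h))) ≤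
      c.κV → A.D.Valid x)
    (hn : ∀ z x, A.D.Valid x → ∀ h,
      A.nxt z h (fun i => A.sys.stk x (A.nb + A.L) (A.W.wr i h)) =
        A.sys.stk (A.D.step z x) A.nb h) :
    RFacts A.sys c where
  wr_own := A.W.own_eq
  L_pos := hL
  expand := hExp
  link_row x j h hj := by
    change A.row x (A.nb + j) h = _
    rw [A.row_further]
    exact hlink x j h hj
  chk_row x j h _ := A.chk_row hS x j h
  exact := by
    intro bad
    obtain ⟨cl, h1, h2, h3⟩ := hEx bad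
    refine ⟨cl, h1, h2, fun j _ x u hu hnear h hh => ?_⟩
    obtain ⟨w, hw⟩ := A.row_eq_E hS x j
    have h4 : ∀ h, A.sys.row x j h = S.E w h := hw
    rw [h4]
    refine h3 w u (fun h hh => ?_) (by simpa only [h4] using hnear) h hh
    have := hu h hh
    change A.chk j h (fun i => u (A.W.wr i h)) at this
    unfold chk at this
    simpa only [A.W.own_eq, A.W.nbw_eq] using this
  bchk_row x h := A.bchk_row hS x h
  ltc ρ hρ u hu := A.ltc hLtc hρ u (hu.trans (hκ ρ hρ))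
  dist x x' hx := A.dist hS hDi x x' hx
  contract := by
    intro bad hbad
    obtain ⟨T, h1, h2⟩ := hCo bad hbad
    refine ⟨T, h1, fun h hh => ⟨(h2 h hh).1, fun j _ x v hv => ?_⟩⟩
    obtain ⟨w, hw⟩ := A.row_eq_E hS x j
    have h4 : ∀ h, A.sys.row x j h = S.E w h := hw
    rw [h4]
    exact (h2 h hh).2 w v fun i hi => by rw [hv i hi, h4]; rfl
  vchk_valid := hv
  valid_vchk := hv'
  nxt_row := hn

end Dat

end Vale.Agent.P330.H840
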