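import Vale.Agent.P330.H797.DynDefs
import Vale.Agent.P330.H155.Alg
import Vale.Agent.P330.W.H624.Comp

/-!
# The concrete register system (definitions)

Sites are `J × Γ`, a symbol is a view `B → F`.  The base registers are the rows `(i, γ, b')` of the
bundles of the `n` base contents; the further registers are words `E` of contents.
-/

set_option autoImplicit false

namespace Vale.Agent.P330.H840

open Finset H155 H797 Q

variable {J Γ B F : Type} [AddCommGroup J] [Fintype J] [Group Γ] [Fintype Γ]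
  [DistribMulAction Γ J] [Field F]

/-- Right translation by the label `b`; the inverse is `S.nb b`. -/
def eP (S : Cd J Γ B F) (b : B) : J × Γ ≃ J × Γ where
  toFun h := (h.1 - h.2 • S.bet b, h.2 * S.eta b)
  invFun := S.nb b
  left_inv h := by simp [Cd.nb]
  right_inv h := by simp [Cd.nb]

omit [Fintype J] [Fintype Γ] in
@[simp] theorem eP_symm (S : Cd J Γ B F) (b : B) (h : J × Γ) : (eP S b).symm h = S.nb b h := rfl

omit [Fintype J] [Fintype Γ] in
@[simp] theorem eP_nb (S : Cd J Γ B F) (b : B) (h : J × Γ) : eP S b (S.nb b h) = h :=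
  (eP S b).apply_symm_apply h

omit [Fintype J] [Fintype Γ] in
@[simp] theorem nb_eP (S : Cd J Γ B F) (b : B) (h : J × Γ) : S.nb b (eP S b h) = h :=
  (eP S b).symm_apply_apply h

/-- Left translations as permutations. -/
def ltP (z : J) (g : Γ) : J × Γ ≃ J × Γ where
  toFun := lt z g
  invFun h := (g⁻¹ • (h.1 - z), g⁻¹ * h.2)
  left_inv h := by simp [lt]
  right_inv h := by simp [lt]

omit [Fintype J] [Fintype Γ] in
@[simp] theorem ltP_apply (z : J) (g : Γ) (h : J × Γ) : ltP z g h = lt z g h := rfl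

/-- The inverse as a permutation. -/
def invP : J × Γ ≃ J × Γ where
  toFun := inv2
  invFun := inv2
  left_inv h := by simp [inv2]
  right_inv h := by simp [inv2]

omit [Fintype J] [Fintype Γ] in
@[simp] theorem invP_apply (h : J × Γ) : invP h = inv2 h := rfl

/-- The wires of the concrete system: `K` permutations of the sites; `tg` and `tj` are the
generators of `Γ` and the translations used by the system. -/
structure Wires (S : Cd J Γ B F) {TG TJ : Type} (tg : TG → Γ) (tj : TJ → J) (K : ℕ) where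
  wr : Fin K → Equiv.Perm (J × Γ)
  own : Fin K
  own_eq : ∀ h, wr own h = h
  /-- the neighbours of the right view -/
  nbw : B → Fin K
  nbw_eq : ∀ b h, wr (nbw b) h = S.nb b h
  /-- the two-step neighbours -/
  hw : B → B → Fin K
  hw_eq : ∀ b b' h, wr (hw b b') h = S.nb b' (eP S b h)
  /-- left translations by the labels -/
  lw : B → Fin K
  lw_eq : ∀ b h, wr (lw b) h = lt (S.bet b) (S.eta b) h
  /-- the inverse -/
  iw : Fin K
  iw_eq : ∀ h, wr iw h = inv2 h
  /-- left translations by the generators of `Γ` -/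
  gw : TG → Fin K
  gw_eq : ∀ g h, wr (gw g) h = lt 0 (tg g) h
  /-- translations in `J` -/
  jw : TJ → Fin K
  jw_eq : ∀ s h, wr (jw s) h = lt (tj s) 1 h
  /-- the number of copies of the expander -/
  nx : ℕ
  /-- more than three quarters of the wires are copies of the two-step neighbours -/
  ex : Fin nx × B × B ↪ Fin K
  ex_eq : ∀ r b b' h, wr (ex (r, b, b')) h = S.nb b' (eP S b h)

/-- All data of the concrete register system. -/
structure Dat (S : Cd J Γ B F) {TG TJ : Type} (tg : TG → Γ) (tj : TJ → J) (K : ℕ) where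
  W : Wires S tg tj K
  /-- the number of base contents -/
  n : ℕ
  /-- the number of base registers and their numbering -/
  nb : ℕ
  ν : Fin nb ≃ Fin n × Γ × B
  /-- the number of further registers and their contents -/
  L : ℕ
  cont : (Fin n → J → F) → ℕ → J → F
  link : ℕ → J × Γ → (Fin K → List (B → F)) → B → F
  /-- the decoders of the local codes -/
  DL : (B → Option F) → B → F
  DR : (B → Option F) → B → F
  vchk : J × Γ → (Fin K → List (B → F)) → Prop
  nxt : Bool → J × Γ → (Fin K → List (B → F)) → List (B → F)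
  D : Dyn (Fin n → J → F)

namespace Dat

variable {S : Cd J Γ B F} {TG TJ : Type} {tg : TG → Γ} {tj : TJ → J} {K : ℕ}
  (A : Dat S tg tj K)

/-- The base content `k`, row `(γ, b')`, in a list of base rows. -/
def bs (l : List (B → F)) (k : Fin A.n) (γ : Γ) (b' b : B) : F :=
  l.getD (A.ν.symm (k, γ, b')) 0 b

/-- The row of register `j` of the content `x` at the site `h`. -/
noncomputable def row (x : Fin A.n → J → F) (j : ℕ) (h : J × Γ) : B → F :=
  if hj : j < A.nb then S.Z (x (A.ν ⟨j, hj⟩).1) h (A.ν ⟨j, hj⟩).2.1 (A.ν ⟨j, hj⟩).2.2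
  else S.E (A.cont x (j - A.nb)) h

/-- The local check of a register: the left view and the right view. -/
def chk (_ : ℕ) (_ : J × Γ) (v : Fin K → B → F) : Prop :=
  v A.W.own ∈ S.C0 ∧ (fun b => v (A.W.nbw b) b) ∈ S.C1

/-- The test of the base registers. -/
def bchk (h : J × Γ) (v : Fin K → List (B → F)) : Prop :=
  (v A.W.own).length = A.nb ∧
  ∀ k : Fin A.n,
    (∀ γ b', A.bs (v A.W.own) k γ b' ∈ S.C0) ∧
    (∀ γ b', (fun b => A.bs (v (A.W.nbw b)) k γ b' b) ∈ S.C1) ∧
    (∀ γ b, (fun b' => A.bs (v A.W.own) k γ b' b) ∈ S.C0) ∧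
    (∀ γ b, (fun b' => A.bs (v (A.W.lw b')) k (γ * (S.eta b')⁻¹) b' b) ∈ S.C1) ∧
    (∀ γ b' b, A.bs (v A.W.own) k γ b' b = A.bs (v A.W.iw) k (γ * h.2) b b') ∧
    (∀ γ, ∀ b' ∈ S.info, A.bs (v A.W.own) k γ b' = A.bs (v A.W.own) k γ S.b0) ∧
    (∀ γ t, A.bs (v A.W.own) k (γ * tg t) S.b0 = A.bs (v (A.W.gw t)) k γ S.b0)

/-- One round of decoding: the right views of the neighbours, then the left view. -/
def dec (_ : ℕ) (_ : J × Γ) (v : Fin K → Option (B → F)) : B → F :=
  A.DL fun b => some (A.DR (fun b' => (v (A.W.hw b b')).map fun x => x b') b)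

/-- The register system. -/
noncomputable def sys : Sys (J × Γ) (B → F) (Fin A.n → J → F) K where
  wr := A.W.wr
  own := A.W.own
  nb := A.nb
  L := A.L
  s0 := 0
  row := A.row
  link := A.link
  chk := A.chk
  bchk := A.bchk
  dec := A.dec
  vchk := A.vchk
  nxt := A.nxt
  D := A.D

end Dat

/-! ### Facts for the single words -/

/-- Exactness for words of the code. -/
def ExactE (S : Cd J Γ B F) (C ρ₀ : ℝ) : Prop :=
  ∀ bad : Finset (J × Γ), ∃ cl : Finset (J × Γ), bad ⊆ cl ∧ (cl.card : ℝ) ≤ C * bad.card ∧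
    ∀ (c : J → F) (u : J × Γ → B → F),
      (∀ h ∉ bad, u h ∈ S.C0 ∧ (fun b => u (S.nb b h) b) ∈ S.C1) →
      fr (fun h => u h ≠ S.E c h) ≤ ρ₀ → ∀ h ∉ cl, u h = S.E c h

/-- Contraction for words of the code. -/
def ContractE (S : Cd J Γ B F) {TG TJ : Type} {tg : TG → Γ} {tj : TJ → J} {K : ℕ}
    (A : Dat S tg tj K) (ρ₁ c₀ : ℝ) : Prop :=
  ∀ bad : Finset (J × Γ), (bad.card : ℝ) ≤ ρ₁ * Fintype.card (J × Γ) →
    ∃ T : Finset (J × Γ), (T.card : ℝ) ≤ c₀ * bad.card ∧ ∀ h ∉ T,
      (∃ G : Finset (Fin K), K < 2 * G.card ∧ ∀ i ∈ G, A.W.wr i h ∉ bad) ∧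
      ∀ (c : J → F) (v : Fin K → Option (B → F)),
        (∀ i, A.W.wr i h ∉ bad → v i = some (S.E c (A.W.wr i h))) → A.dec 0 h v = S.E c h

/-- Edge expansion of the wires. -/
def ExpandE {K : ℕ} (wr : Fin K → Equiv.Perm (J × Γ)) (cE : ℝ) : Prop :=
  ∀ A : Finset (J × Γ), 2 * A.card ≤ Fintype.card (J × Γ) →
    ∃ A' : Finset (J × Γ), (∀ h ∈ A', h ∈ A ∧ ∃ i, wr i h ∉ A) ∧ cE * A.card ≤ A'.card

/-- Distance of words of the code. -/
def DistE (S : Cd J Γ B F) (θ : ℝ) : Prop :=
  ∀ c c' : J → F, c ≠ c' → θ ≤ fr (fun h => S.E c h ≠ S.E c' h)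

end Vale.Agent.P330.H840
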